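import Mathlib
import Vale.Agent.P219.Six.Defs
import Vale.Agent.P219.Univ.PerBasics

/-!
# The cut off normal, cutoff calculus and sublevel sets
-/

open MeasureTheory Filter Topology Set Metric
open scoped ENNReal ContDiff

namespace Vale.Agent.P219.Six.Surf

open Vale.Agent.P219 Vale.Agent.P219.Univ Vale.Agent.P219.Six

noncomputable section

variable {n : ℕ} {g : MetricField n} {φ : Space n → ℝ} {η : ℝ}

theorem gGrad_contDiff (hg : IsMetric g) (hφ : ContDiff ℝ 2 φ) :
    ContDiff ℝ 1 (gGrad g φ) := by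
  refine contDiff_iff_contDiffAt.2 fun x => ?_
  obtain ⟨e, he⟩ := Univ.Alg.equiv hg x
  have h1 : ContDiffAt ℝ 1 ContinuousLinearMap.inverse (g x) := by
    rw [← he]; exact contDiffAt_map_inverse e
  exact (h1.comp x (hg.smooth.of_le (by simp)).contDiffAt).clm_apply
    (hφ.fderiv_right (m := 1) (by norm_num)).contDiffAt

theorem gradLen_eq (hg : IsMetric g) (x : Space n) :
    gradLen g φ x = Real.sqrt (fderiv ℝ φ x (gGrad g φ x)) := by
  rw [gradLen, gNorm, gGrad_dual hg]

theorem gradLen_continuous (hg : IsMetric g) (hφ : ContDiff ℝ 2 φ) :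
    Continuous (gradLen g φ) := by
  have e : gradLen g φ = fun x => Real.sqrt (fderiv ℝ φ x (gGrad g φ x)) :=
    funext (gradLen_eq hg)
  rw [e]
  exact ((hφ.continuous_fderiv (by norm_num)).clm_apply
    (gGrad_contDiff hg hφ).continuous).sqrt

theorem gradLen_pos (hg : IsMetric g) {x : Space n} (hx : fderiv ℝ φ x ≠ 0) :
    0 < gradLen g φ x := by
  refine gNorm_pos hg fun h0 => hx ?_
  ext v
  rw [← gGrad_dual hg φ x v, h0]
  simp

theorem gradLen_nonneg (g : MetricField n) (φ : Space n → ℝ) (x : Space n) :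
    0 ≤ gradLen g φ x := gNorm_nonneg g x _

theorem fderiv_unitN (hg : IsMetric g) (x : Space n) :
    fderiv ℝ φ x (unitN g φ x) = gradLen g φ x := by
  rw [unitN, map_smul, smul_eq_mul, ← gGrad_dual hg φ x, ← gNorm_sq hg, gradLen]
  rcases eq_or_ne (gNorm g x (gGrad g φ x)) 0 with h | h
  · simp [h]
  · field_simp

theorem g_unitN (hg : IsMetric g) (x v : Space n) :
    g x v (unitN g φ x) * gradLen g φ x = fderiv ℝ φ x v := by
  rcases eq_or_ne (fderiv ℝ φ x) 0 with h | h
  · have : gGrad g φ x = 0 := by simp [gGrad, sharp, h]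
    simp [gradLen, this, h, gNorm_zero]
  · have hp := gradLen_pos hg h
    rw [unitN, map_smul, smul_eq_mul, hg.symm x v, gGrad_dual hg]
    field_simp

theorem gNorm_unitN (hg : IsMetric g) {x : Space n} (hx : fderiv ℝ φ x ≠ 0) :
    gNorm g x (unitN g φ x) = 1 := by
  have hp := gradLen_pos hg hx
  rw [unitN, gNorm_smul, abs_of_pos (inv_pos.2 hp)]
  exact inv_mul_cancel₀ hp.ne'

theorem gNorm_unitN_le (hg : IsMetric g) (x : Space n) :
    gNorm g x (unitN g φ x) ≤ 1 := by
  rcases eq_or_ne (fderiv ℝ φ x) 0 with h | h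
  · have : gGrad g φ x = 0 := by simp [gGrad, sharp, h]
    simp [unitN, this, gNorm_zero]
  · exact (gNorm_unitN hg h).le

theorem unitN_contDiffAt (hg : IsMetric g) (hφ : ContDiff ℝ 2 φ) {x : Space n}
    (hx : fderiv ℝ φ x ≠ 0) : ContDiffAt ℝ 1 (unitN g φ) x := by
  have hG := gGrad_contDiff hg hφ
  have h1 : ContDiff ℝ 1 fun y => fderiv ℝ φ y (gGrad g φ y) :=
    (hφ.fderiv_right (m := 1) (by norm_num)).clm_apply hG
  have hp : 0 < fderiv ℝ φ x (gGrad g φ x) := by
    have := gradLen_pos hg hx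
    rw [gradLen_eq hg] at this
    exact Real.sqrt_pos.1 this
  have h2 : ContDiffAt ℝ 1 (gradLen g φ) x := by
    have e : gradLen g φ = fun y => Real.sqrt (fderiv ℝ φ y (gGrad g φ y)) :=
      funext (gradLen_eq hg)
    rw [e]
    exact h1.contDiffAt.sqrt hp.ne'
  exact (h2.inv (gradLen_pos hg hx).ne').smul hG.contDiffAt

theorem bump_eq_one {s : ℝ} (h : |s| ≤ 1 / 2) : bump s = 1 := by
  refine Real.smoothTransition.one_of_one_le ?_
  obtain ⟨h1, h2⟩ := abs_le.1 h
  nlinarith

theorem bump_eq_zero {s : ℝ} (h : 1 ≤ |s|) : bump s = 0 := by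
  refine Real.smoothTransition.zero_of_nonpos ?_
  have h2 : 1 ≤ s ^ 2 := by rw [← sq_abs]; exact one_le_pow₀ h
  linarith

theorem bump_mem (s : ℝ) : 0 ≤ bump s ∧ bump s ≤ 1 :=
  ⟨Real.smoothTransition.nonneg _, Real.smoothTransition.le_one _⟩

theorem bump_contDiff {m : ℕ∞} : ContDiff ℝ m bump :=
  Real.smoothTransition.contDiff.comp (by fun_prop)

theorem bump_window (hw : RegWindow φ η) {x : Space n} (h : |φ x| ≤ η / 2) :
    bump (φ x / η) = 1 := by
  refine bump_eq_one ?_
  rw [abs_div, abs_of_pos hw.1, div_le_iff₀ hw.1]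
  linarith

theorem fderiv_ne_window (hw : RegWindow φ η) {x : Space n} (h : |φ x| ≤ η / 2) :
    fderiv ℝ φ x ≠ 0 := hw.2.2 x (by linarith [hw.1])

theorem cutN_eventually_zero (hφ : ContDiff ℝ 2 φ) (hw : RegWindow φ η) {x : Space n}
    (hx : η < |φ x|) : cutN g φ η =ᶠ[𝓝 x] fun _ => 0 := by
  filter_upwards [(continuous_abs.comp hφ.continuous).continuousAt.eventually
    (isOpen_Ioi.mem_nhds hx)] with y hy
  have : bump (φ y / η) = 0 := by
    refine bump_eq_zero ?_
    rw [abs_div, abs_of_pos hw.1, le_div_iff₀ hw.1]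
    simpa using (le_of_lt hy)
  simp [cutN, this]

/-- A function is admissible if it is continuously differentiable where `φ` is regular. -/
theorem smul_cutN_contDiff (hg : IsMetric g) (hφ : ContDiff ℝ 2 φ) (hw : RegWindow φ η)
    {h : Space n → ℝ} (hh : ∀ x, fderiv ℝ φ x ≠ 0 → ContDiffAt ℝ 1 h x) :
    ContDiff ℝ 1 fun y => h y • cutN g φ η y := by
  refine contDiff_iff_contDiffAt.2 fun x => ?_
  rcases le_or_gt |φ x| η with hx | hx
  · have hd := hw.2.2 x hx
    have hb : ContDiffAt ℝ 1 (fun y => bump (φ y / η)) x :=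
      ((bump_contDiff (m := 1)).comp ((hφ.of_le (by norm_num)).div_const η)).contDiffAt
    exact (hh x hd).smul (hb.smul (unitN_contDiffAt hg hφ hd))
  · refine (contDiffAt_const (c := (0 : Space n))).congr_of_eventuallyEq ?_
    filter_upwards [cutN_eventually_zero (g := g) hφ hw hx] with y hy
    simp [hy]

theorem cutN_zero_far (hφ : Defining φ) (hw : RegWindow φ η) :
    ∃ R : ℝ, ∀ x, R < ‖x‖ → cutN g φ η x = 0 := by
  obtain ⟨R, hR⟩ := hφ.far
  refine ⟨R, fun x hx => ?_⟩
  have h1 : η < |φ x| := lt_of_lt_of_le hw.2.1 ((hR x hx.le).trans (le_abs_self _))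
  exact (cutN_eventually_zero hφ.smooth hw h1).self_of_nhds

theorem smul_cutN_compact (hφ : Defining φ) (hw : RegWindow φ η) (h : Space n → ℝ) :
    HasCompactSupport fun y => h y • cutN g φ η y := by
  obtain ⟨R, hR⟩ := cutN_zero_far (g := g) hφ hw
  refine HasCompactSupport.intro (isCompact_closedBall (0 : Space n) R) fun x hx => ?_
  rw [mem_closedBall_zero_iff, not_le] at hx
  simp [hR x hx]

theorem measurableSet_sub (hφ : Continuous φ) (τ : ℝ) : MeasurableSet (sub φ τ) :=
  (isOpen_lt hφ continuous_const).measurableSet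

theorem sub_subset_ball (hφ : Defining φ) {τ : ℝ} (hτ : τ ≤ 1) :
    ∃ R : ℝ, sub φ τ ⊆ closedBall 0 R := by
  obtain ⟨R, hR⟩ := hφ.far
  refine ⟨R, fun x hx => ?_⟩
  rw [mem_closedBall_zero_iff]
  by_contra h
  have := hR x (not_le.1 h).le
  have hx' : φ x < τ := hx
  linarith

theorem integrableOn_sub (hφ : Defining φ) {τ : ℝ} (hτ : τ ≤ 1) {F : Space n → ℝ}
    (hF : Continuous F) : IntegrableOn F (sub φ τ) := by
  obtain ⟨R, hR⟩ := sub_subset_ball hφ hτ
  exact integrableOn_of_bounded hF hR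

theorem divg_sub_smul {A B : Space n → Space n} (hA : ContDiff ℝ 1 A) (hB : ContDiff ℝ 1 B)
    (a b : ℝ) (x : Space n) :
    divg (fun y => a • A y + b • B y) x = a * divg A x + b * divg B x := by
  rw [← divg_const_smul (hA.differentiable one_ne_zero x),
    ← divg_const_smul (hB.differentiable one_ne_zero x)]
  unfold divg
  rw [← Finset.sum_add_distrib]
  refine Finset.sum_congr rfl fun i _ => ?_
  simp only [pd, PiLp.add_apply]
  rw [fderiv_fun_add ((contDiff_euclidean.1 (hA.const_smul a) i).differentiable one_ne_zero x)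
    ((contDiff_euclidean.1 (hB.const_smul b) i).differentiable one_ne_zero x)]
  rfl

/-- Integration by parts against a function of the defining function. -/
theorem parts (hφ : Defining φ) {Θ : ℝ → ℝ} (hΘ : ContDiff ℝ 1 Θ) (h1 : ∀ s, 1 ≤ s → Θ s = 0)
    {Z : Space n → Space n} (hZ : ContDiff ℝ 1 Z) :
    ∫ x, Θ (φ x) * divg Z x = -∫ x, deriv Θ (φ x) * fderiv ℝ φ x (Z x) := by
  obtain ⟨R, hR⟩ := hφ.far
  have hφ1 : ContDiff ℝ 1 φ := hφ.smooth.of_le (by norm_num)
  have hf : ContDiff ℝ 1 fun x => Θ (φ x) := hΘ.comp hφ1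
  have hfc : HasCompactSupport fun x => Θ (φ x) :=
    HasCompactSupport.intro (isCompact_closedBall (0 : Space n) R) fun x hx => by
      rw [mem_closedBall_zero_iff, not_le] at hx
      exact h1 _ (hR x hx.le)
  have he : ∀ x, divg (fun y => Θ (φ y) • Z y) x =
      deriv Θ (φ x) * fderiv ℝ φ x (Z x) + Θ (φ x) * divg Z x := by
    intro x
    rw [divg_smul (hf.differentiable one_ne_zero x) (hZ.differentiable one_ne_zero x)]
    have hc : fderiv ℝ (fun y => Θ (φ y)) x = deriv Θ (φ x) • fderiv ℝ φ x :=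
      ((hΘ.differentiable one_ne_zero (φ x)).hasDerivAt.comp_hasFDerivAt x
        (hφ1.differentiable one_ne_zero x).hasFDerivAt).fderiv
    rw [hc]
    simp
  have i2 : Integrable fun x => Θ (φ x) * divg Z x :=
    (hf.continuous.mul (continuous_divg hZ)).integrable_of_hasCompactSupport hfc.mul_right
  have i0 : Integrable (divg fun y => Θ (φ y) • Z y) :=
    integrable_divg (hf.smul hZ) hfc.smul_right
  have i1 : Integrable fun x => deriv Θ (φ x) * fderiv ℝ φ x (Z x) := by
    refine (i0.sub i2).congr (ae_of_all _ fun x => ?_)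
    simp only [Pi.sub_apply, he x]
    ring
  have h0 := integral_divg_eq_zero (hf.smul hZ) hfc.smul_right
  erw [integral_congr_ae (ae_of_all _ he)] at h0
  rw [integral_add i1 i2] at h0
  linarith

end

end Vale.Agent.P219.Six.Surf
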